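import Mathlib
import Vale.Agent.Lib.P302DataA

/-!
An explicit bin packing instance with additive integrality gap at least `251/208`.

Here `OPT(I)` is the least number of unit bins into which the list `I` can be partitioned and
`LP(I)` is the value of the Gilmore-Gomory configuration linear program.  The witness is built
in `Vale.Agent.Lib.P302DataA`: it has 26 item sizes (denominator 418381) and 754 items.
-/

/-- There is a bin packing instance `I` (a list of rational sizes in `(0,1]`) with
`OPT(I) - LP(I) ≥ 251/208`, which exceeds the value `6/5` of Rietz and Dempe and the value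
`77/64` of Ripatti and Kartak. -/
theorem Vale.Agent.Results.P302.GapAbove77over64.result :
    ∃ I : List ℚ, (∀ a ∈ I, 0 < a ∧ a ≤ 1) ∧
      ((251 : ℝ) / 208) ≤ ((sInf {k : ℕ | ∃ f : Fin I.length → Fin k,
            ∀ j, ∑ x ∈ Finset.univ.filter (fun x => f x = j), I.get x ≤ 1} : ℕ) : ℝ) -
          sInf {v : ℝ | ∃ (t : ℕ) (c : Fin t → ℚ → ℕ) (z : Fin t → ℝ),
            (∀ j, ∑ σ ∈ I.toFinset, σ * (c j σ : ℚ) ≤ 1) ∧ (∀ j, 0 ≤ z j) ∧
            (∀ σ ∈ I.toFinset, (I.count σ : ℝ) ≤ ∑ j, (c j σ : ℝ) * z j) ∧ v = ∑ j, z j} :=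
  Vale.Agent.P302.DataA.main
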